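import Vale.Agent.P181.RV.H627.UDefs
import Vale.Agent.P181.RG.H968.Core

set_option autoImplicit false

/-!
# P181, RVU: `CorVU` from the blocks (the proof of `RV.H233.corV`, uniform in `q`)
-/

namespace Vale.Agent.P181.RV.H627

open Finset Vale.Agent.P181 Vale.Agent.P181.H280 Vale.Agent.P181.H463
open Vale.Agent.P181.RG Vale.Agent.P181.RG.H968

lemma ceil_le {A B g : ℕ} (hB : 0 < B) (h : A ≤ B * g) : (A + B - 1) / B ≤ g := by
  rw [← Nat.lt_succ_iff, Nat.div_lt_iff_lt_mul hB]
  have : (g + 1) * B = B * g + B := by ring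
  rw [Nat.succ_eq_add_one, this]
  omega

lemma le_ceil {A B : ℕ} (hB : 0 < B) : A ≤ B * ((A + B - 1) / B) := by
  have h1 := Nat.div_add_mod (A + B - 1) B
  have h2 := Nat.mod_lt (A + B - 1) hB
  omega

theorem corVU (hMat : MatRG) (hDes : DesRG) (hHalf : HalfRG) (hPar : ParV) (hNum : NumVU)
    (hTop : TopV) (hUp : TL.UpB) : CorVU := by
  obtain ⟨a₁, hPar⟩ := hPar
  obtain ⟨a₂, hNum⟩ := hNum
  refine ⟨max a₁ a₂, ?_⟩
  intro q a b X m k lam hq ha hlam hsum hna hqX hXa hab hbX hm hmn hmX hrow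
  have ha1 : a₁ ≤ a := le_trans (le_max_left _ _) ha
  have ha2 : a₂ ≤ a := le_trans (le_max_right _ _) ha
  have hX : 2 ≤ X := by omega
  have hX0 : 0 < X := by omega
  have hX40 : X ^ 40 ≤ a := le_trans (Nat.pow_le_pow_right hX0 (by omega)) hXa
  have hXX : X * X ≤ a := by
    refine le_trans ?_ hX40
    calc X * X = X ^ 2 := by ring
      _ ≤ X ^ 40 := Nat.pow_le_pow_right hX0 (by norm_num)
  have ha0 : 0 < a := lt_of_lt_of_le (by positivity) hX40
  have hab' : a ≤ b := by
    by_contra hcon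
    have h1 : b < a := by omega
    have h2 : q * b ≤ q * a := Nat.mul_le_mul_left _ h1.le
    have h3 : (q + 1) * a = q * a + a := by ring
    omega
  obtain ⟨u, D, R, f₀, F₀, T, s, N, hu, hs, huD, hub, hN1, hN2, hF, hmf, huT, hmf8, hus, hTf, hXN,
    hXu, hubb⟩ := hPar a b X m ha1 hX hX40 hab' hbX hm hmX
  -- `u` is large
  have hqu : (2 * q + 1) * a ≤ 2 * q * u := by
    have h1 : 2 * q * (b - u) ≤ a := le_trans (Nat.mul_le_mul_right _ hqX) hXu
    have h2 : 2 * q * b = 2 * q * (b - u) + 2 * q * u := by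
      rw [← Nat.mul_add, Nat.sub_add_cancel hubb]
    have h3 : 2 * ((q + 1) * a) ≤ 2 * (q * b) := Nat.mul_le_mul_left _ hab
    have h4 : 2 * ((q + 1) * a) = (2 * q + 1) * a + a := by ring
    have h5 : 2 * (q * b) = 2 * q * b := by ring
    omega
  have hua : a + 2 ≤ u := by
    by_contra hcon
    have h1 : u ≤ a + 1 := by omega
    have h2 : 2 * q * u ≤ 2 * q * (a + 1) := Nat.mul_le_mul_left _ h1
    have h3 : 2 * q * (a + 1) = 2 * q * a + 2 * q := by ring
    have h4 : (2 * q + 1) * a = 2 * q * a + a := by ring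
    have h5 : a ≤ 2 * q := by omega
    have h6 : X * X ≤ X := le_trans hXX (le_trans h5 hqX)
    have h7 : X * 2 ≤ X * X := Nat.mul_le_mul_left _ hX
    omega
  -- rows
  have hr1 : ∀ i : Fin (k + 2), (i : ℕ) < m → 2 * N ≤ lam i := by
    intro i hi
    have h1 := (hrow i hi).1
    have h2 : X * (2 * N) ≤ X * lam i := by
      calc X * (2 * N) = 2 * X * N := by ring
        _ ≤ a ^ 2 := hXN
        _ ≤ X * lam i := h1
    exact Nat.le_of_mul_le_mul_left h2 hX0
  have hr2 : ∀ i : Fin (k + 2), (i : ℕ) < m → ∀ j : Fin (k + 2), m ≤ (j : ℕ) →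
      2 * N + lam j ≤ lam i := by
    intro i hi j hj
    have h1 := (hrow i hi).2 j hj
    have h2 : X * (2 * N + lam j) ≤ X * lam i := by
      calc X * (2 * N + lam j) = 2 * X * N + X * lam j := by ring
        _ ≤ a ^ 2 + X * lam j := Nat.add_le_add_right hXN _
        _ ≤ X * lam i := h1
    exact Nat.le_of_mul_le_mul_left h2 hX0
  set η : Fin (k + 2) → ℕ := fun i => lam i - if (i : ℕ) < m then N else 0 with hηd
  have hle : ∀ i : Fin (k + 2), (if (i : ℕ) < m then N else 0) ≤ lam i := by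
    intro i
    split_ifs with h
    · have := hr1 i h
      omega
    · exact Nat.zero_le _
  have hηl : ∀ i : Fin (k + 2), (if (i : ℕ) < m then N else 0) + η i = lam i := by
    intro i
    have := hle i
    simp only [hηd]
    omega
  have hη : Antitone η := by
    intro i j hij
    have h1 := hlam hij
    simp only [hηd]
    have hij' : (i : ℕ) ≤ (j : ℕ) := hij
    by_cases hj : (j : ℕ) < m
    · rw [if_pos hj, if_pos (by omega)]
      omega
    · by_cases hi : (i : ℕ) < m
      · rw [if_neg hj, if_pos hi]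
        have := hr2 i hi j (by omega)
        omega
      · rw [if_neg hj, if_neg hi]
        omega
  set S := ∑ i, η i with hS
  have hSN : S + m * N = a * b := by
    rw [← hsum, ← sum_top hmn N, hS, ← Finset.sum_add_distrib]
    exact Finset.sum_congr rfl fun i _ => by
      rw [← hηl i, Nat.add_comm]
  have hmf0 : m ≤ f₀ := by omega
  have hcls := sum_cls hmf0
  have heq := bal_eq hcls hub hN2 hSN
  -- the degrees
  have hc0 : S ≤ u * (a - (2 * D + s + 2 * T)) := by
    have h1 : 3 * (u * (2 * D + s + T)) ≤ m * F₀ :=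
      Nat.mul_le_mul hm hF
    have h2 : u * (2 * D + s + 2 * T) ≤ 3 * (u * (2 * D + s + T)) := by
      calc u * (2 * D + s + 2 * T) ≤ u * (3 * (2 * D + s + T)) :=
            Nat.mul_le_mul_left _ (by omega)
        _ = 3 * (u * (2 * D + s + T)) := by ring
    have h3 : S + u * (2 * D + s + 2 * T) ≤ u * a := by
      have h4 : 0 ≤ a * (m * (m - 1)) := Nat.zero_le _
      omega
    rw [Nat.mul_sub]
    omega
  have hca : 2 * D + s + 2 * T ≤ a := by
    by_contra hcon
    have h1 : 3 * (u * (2 * D + s + T)) ≤ m * F₀ := Nat.mul_le_mul hm hF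
    have h2 : u * (2 * D + s + 2 * T) ≤ 3 * (u * (2 * D + s + T)) := by
      calc u * (2 * D + s + 2 * T) ≤ u * (3 * (2 * D + s + T)) :=
            Nat.mul_le_mul_left _ (by omega)
        _ = 3 * (u * (2 * D + s + T)) := by ring
    have h3 : u * (2 * D + s + 2 * T) ≤ u * a := by
      have h4 : 0 ≤ a * (m * (m - 1)) := Nat.zero_le _
      omega
    exact hcon (Nat.le_of_mul_le_mul_left h3 hu)
  have hd : ∀ i, bal u S i ≤ a - (2 * D + s + 2 * T) := bal_le_of hc0
  have hda : ∀ i, bal u S i ≤ a := fun i => (hd i).trans (Nat.sub_le _ _)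
  have hes : (∑ i, (a - bal u S i)) + S = u * a := by
    have h1 : (∑ i, (a - bal u S i)) + ∑ i, bal u S i = u * a := by
      rw [← Finset.sum_add_distrib, Finset.sum_congr rfl fun i _ => Nat.sub_add_cancel (hda i),
        Finset.sum_const, Finset.card_univ, Fintype.card_fin, smul_eq_mul]
    rwa [sum_bal (by omega) S] at h1
  have hdes : RDes u m D R a (fun r => f₀ - r) (fun i => a - bal u S i) := by
    refine hDes u m D R a f₀ F₀ T s _ hm hu hs huD (by rw [← hN1, hN2]) ?_ ?_ hF hmf huT hmf8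
      hus hTf
    · omega
    · intro i
      have := hd i
      omega
  have hmat := hMat (k + 2) a b u m D R (fun r => f₀ - r) lam η (bal u S) hm hmn huD hub hη
    (bal_le u S) (sum_bal (by omega) S) hda hdes (by rw [← hN1]; exact hηl)
  -- the gap
  set y := (a ^ 2 + 2 * X - 1) / (2 * X) with hyd
  have h2X : 0 < 2 * X := by omega
  have hy : a ^ 2 ≤ 2 * X * y := le_ceil h2X
  have hy1 : ∀ i : Fin (k + 2), (i : ℕ) < m → y ≤ η i := by
    intro i hi
    refine ceil_le h2X ?_
    have h1 := (hrow i hi).1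
    have h2 := hηl i
    rw [if_pos hi] at h2
    rw [← h2, Nat.mul_add] at h1
    have h3 : 2 * X * N = 2 * (X * N) := by ring
    have h4 : 2 * X * η i = 2 * (X * η i) := by ring
    rw [h4]
    rw [h3] at hXN
    omega
  have hy2 : ∀ i : Fin (k + 2), (i : ℕ) < m → ∀ j : Fin (k + 2), m ≤ (j : ℕ) →
      y + η j ≤ η i := by
    intro i hi j hj
    have h0 := hr2 i hi j hj
    have h1 := (hrow i hi).2 j hj
    have h2 := hηl i
    have h2' := hηl j
    rw [if_pos hi] at h2
    rw [if_neg (by omega)] at h2'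
    have h5 : η j ≤ η i := by omega
    have h6 : y ≤ η i - η j := by
      refine ceil_le h2X ?_
      have h7 : X * η i = X * (η i - η j) + X * η j := by
        rw [← Nat.mul_add, Nat.sub_add_cancel h5]
      have h8 : X * lam i = X * N + X * η i := by rw [← h2, Nat.mul_add]
      have h9 : X * lam j = X * η j := by rw [← h2', Nat.zero_add]
      have h3 : 2 * X * N = 2 * (X * N) := by ring
      have h4 : 2 * X * (η i - η j) = 2 * (X * (η i - η j)) := by ring
      rw [h4]
      rw [h3] at hXN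
      omega
    omega
  -- two top rows
  have hmu : m ≤ u := by omega
  have htop := hTop k m u y η hη (by omega) (by omega) hmu (fun i hi =>
    ⟨hy1 i (by omega), hy2 i (by omega)⟩)
  set η2 : Fin k → ℕ := fun i => η i.succ.succ with hη2
  have hη2a : Antitone η2 := by
    intro i j hij
    refine hη ?_
    rw [Fin.succ_le_succ_iff, Fin.succ_le_succ_iff]
    exact hij
  have hlam2a : Antitone (fun i : Fin k => lam i.succ.succ) := by
    intro i j hij
    refine hlam ?_
    rw [Fin.succ_le_succ_iff, Fin.succ_le_succ_iff]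
    exact hij
  have hval : ∀ i : Fin k, ((i.succ.succ : Fin (k + 2)) : ℕ) = (i : ℕ) + 2 := fun i => by
    rw [Fin.val_succ, Fin.val_succ]
  -- halving
  have hhalf := hHalf k (m - 2) a N (fun i : Fin k => lam i.succ.succ) η2 hη2a (by omega)
    (by omega) (fun i => by
      rw [← hηl i.succ.succ, Nat.add_comm, hval i]
      show η i.succ.succ + (if (i : ℕ) + 2 < m then N else 0) =
        η i.succ.succ + if (i : ℕ) < m - 2 then N else 0
      congr 1
      by_cases h : (i : ℕ) + 2 < m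
      · rw [if_pos h, if_pos (by omega)]
      · rw [if_neg h, if_neg (by omega)]) (by
    intro i hi
    have hi' : ((i.succ.succ : Fin (k + 2)) : ℕ) < m := by
      rw [hval i]
      omega
    have h1 := hr1 i.succ.succ hi'
    have h1' := hηl i.succ.succ
    rw [if_pos hi'] at h1'
    refine ⟨?_, ?_⟩
    · show N ≤ η i.succ.succ
      omega
    · intro j hj
      have hj' : m ≤ ((j.succ.succ : Fin (k + 2)) : ℕ) := by
        rw [hval j]
        omega
      have h2 := hr2 i.succ.succ hi' j.succ.succ hj'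
      have h2' := hηl j.succ.succ
      rw [if_neg (by omega)] at h2'
      show N + η j.succ.succ ≤ η i.succ.succ
      omega)
  have hnum := hNum (2 * q) a b X m u S y (by omega) ha2 hX hqX (by
    calc X ^ (100 * (2 * q)) = X ^ (200 * q) := by ring_nf
      _ ≤ a := hXa) hab' hbX hm hmX hqu hubb (by omega) hy
  have hgrow := Vale.Agent.P181.H539.gt_growth_rows (n := k) (a := a) (N := u - 2) (l := m - 2)
    (n0 := y) (by omega) ha0 (by omega) hη2a (by omega) (fun i hi => hy1 i.succ.succ (by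
      rw [hval i]
      omega))
  have hup : (plethMult a b (k + 2) lam : ℝ) ≤
      ((a + b).choose a : ℝ) * (2 ^ ((m - 2) * a) * (gt k a η2 : ℝ)) := by
    have h1 := hUp a b k lam
    have h2 := Vale.Agent.P181.H539.finrank_HW_le_gt k a hlam2a
    have h3 : plethMult a b (k + 2) lam ≤ (a + b).choose a * (2 ^ ((m - 2) * a) * gt k a η2) :=
      h1.trans (Nat.mul_le_mul_left _ (h2.trans hhalf))
    exact_mod_cast h3
  have hmat' : (gt (k + 2) u η : ℝ) ≤ ((S + u - 1).choose (u - 1) : ℝ) *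
      ((u.factorial : ℝ) * (plethMult b a (k + 2) lam : ℝ)) := by
    exact_mod_cast hmat
  have htop' : (y : ℝ) ^ (2 * (u - m)) * (gt k (u - 2) η2 : ℝ) ≤
      (u.factorial : ℝ) ^ 2 * (gt (k + 2) u η : ℝ) := by
    exact_mod_cast htop
  have hpos : (0 : ℝ) < ((S + u - 1).choose (u - 1) : ℝ) * (u.factorial : ℝ) *
      (u.factorial : ℝ) ^ 2 := by
    have h1 : 0 < (S + u - 1).choose (u - 1) := Nat.choose_pos (by omega)
    have h2 := Nat.factorial_pos u
    positivity
  have hpow2 : (2 : ℝ) ^ ((m - 2) * a) ≤ 2 ^ (m * a) :=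
    pow_le_pow_right₀ (by norm_num) (Nat.mul_le_mul_right _ (by omega))
  have hu2 : (0 : ℝ) < ((u - 2 : ℕ) : ℝ) := by
    have : 0 < u - 2 := by omega
    exact_mod_cast this
  have hbase : (1 + (y : ℝ) / u) ^ ((m - 2) * (u - 2 - a)) ≤
      (1 + (y : ℝ) / ((u - 2 : ℕ) : ℝ)) ^ ((m - 2) * (u - 2 - a)) := by
    refine pow_le_pow_left₀ (by positivity) ?_ _
    have h1 : ((u - 2 : ℕ) : ℝ) ≤ (u : ℝ) := by exact_mod_cast Nat.sub_le u 2
    have h2 : (y : ℝ) / u ≤ (y : ℝ) / ((u - 2 : ℕ) : ℝ) :=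
      div_le_div_of_nonneg_left (Nat.cast_nonneg _) hu2 h1
    linarith
  have key : (((S + u - 1).choose (u - 1) : ℝ) * (u.factorial : ℝ) * (u.factorial : ℝ) ^ 2) *
      (plethMult a b (k + 2) lam : ℝ) ≤
      (((S + u - 1).choose (u - 1) : ℝ) * (u.factorial : ℝ) * (u.factorial : ℝ) ^ 2) *
        (plethMult b a (k + 2) lam : ℝ) := by
    calc (((S + u - 1).choose (u - 1) : ℝ) * (u.factorial : ℝ) * (u.factorial : ℝ) ^ 2) *
          (plethMult a b (k + 2) lam : ℝ)
        ≤ (((S + u - 1).choose (u - 1) : ℝ) * (u.factorial : ℝ) * (u.factorial : ℝ) ^ 2) *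
          (((a + b).choose a : ℝ) * (2 ^ ((m - 2) * a) * (gt k a η2 : ℝ))) :=
          mul_le_mul_of_nonneg_left hup hpos.le
      _ ≤ (((S + u - 1).choose (u - 1) : ℝ) * (u.factorial : ℝ) * (u.factorial : ℝ) ^ 2) *
          (((a + b).choose a : ℝ) * (2 ^ (m * a) * (gt k a η2 : ℝ))) :=
          mul_le_mul_of_nonneg_left (mul_le_mul_of_nonneg_left
            (mul_le_mul_of_nonneg_right hpow2 (Nat.cast_nonneg _)) (Nat.cast_nonneg _)) hpos.le
      _ = (((a + b).choose a : ℝ) * 2 ^ (m * a) * (((S + u - 1).choose (u - 1) : ℝ) *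
          (u.factorial : ℝ)) * (u.factorial : ℝ) ^ 2) * (gt k a η2 : ℝ) := by ring
      _ ≤ ((1 + (y : ℝ) / u) ^ ((m - 2) * (u - 2 - a)) * (y : ℝ) ^ (2 * (u - m))) *
          (gt k a η2 : ℝ) := mul_le_mul_of_nonneg_right hnum (Nat.cast_nonneg _)
      _ ≤ ((1 + (y : ℝ) / ((u - 2 : ℕ) : ℝ)) ^ ((m - 2) * (u - 2 - a)) *
          (y : ℝ) ^ (2 * (u - m))) * (gt k a η2 : ℝ) :=
          mul_le_mul_of_nonneg_right (mul_le_mul_of_nonneg_right hbase (by positivity))
            (Nat.cast_nonneg _)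
      _ = (y : ℝ) ^ (2 * (u - m)) * ((gt k a η2 : ℝ) *
          (1 + (y : ℝ) / ((u - 2 : ℕ) : ℝ)) ^ ((m - 2) * (u - 2 - a))) := by ring
      _ ≤ (y : ℝ) ^ (2 * (u - m)) * (gt k (u - 2) η2 : ℝ) :=
          mul_le_mul_of_nonneg_left hgrow (by positivity)
      _ ≤ (u.factorial : ℝ) ^ 2 * (gt (k + 2) u η : ℝ) := htop'
      _ ≤ (u.factorial : ℝ) ^ 2 * (((S + u - 1).choose (u - 1) : ℝ) *
          ((u.factorial : ℝ) * (plethMult b a (k + 2) lam : ℝ))) :=
          mul_le_mul_of_nonneg_left hmat' (by positivity)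
      _ = _ := by ring
  exact_mod_cast le_of_mul_le_mul_left key hpos

end Vale.Agent.P181.RV.H627
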