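import Vale.Agent.P181.RV.H627.UDefs

set_option autoImplicit false

/-!
# P181, RVU: the numbers, uniform in `q`
-/

namespace Vale.Agent.P181.RV.H627

open Real

lemma choose_exp {a b X : ℕ} (ha : 0 < a) (hX : 2 ≤ X) (hbX : b ≤ X * a) :
    ((a + b).choose a : ℝ) ≤ Real.exp (a * (2 * Real.log X + 1)) := by
  have haR : (0 : ℝ) < a := by exact_mod_cast ha
  have hXR : (2 : ℝ) ≤ X := by exact_mod_cast hX
  have h1 : ((a + b).choose a : ℝ) ≤ ((a + b : ℕ) : ℝ) ^ a / (a.factorial : ℝ) :=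
    Nat.choose_le_pow_div a (a + b)
  have h2 : ((a + b : ℕ) : ℝ) ≤ (X : ℝ) ^ 2 * a := by
    have h3 : a + b ≤ X ^ 2 * a := by
      calc a + b ≤ a + X * a := by omega
        _ = (1 + X) * a := by ring
        _ ≤ X ^ 2 * a := Nat.mul_le_mul_right _ (by nlinarith)
    exact_mod_cast h3
  have h4 : (a : ℝ) ^ a / (a.factorial : ℝ) ≤ Real.exp a :=
    Real.pow_div_factorial_le_exp _ haR.le a
  have hf : (0 : ℝ) < a.factorial := by exact_mod_cast Nat.factorial_pos a
  have hX2 : ((X : ℝ) ^ 2) ^ a = Real.exp (a * (2 * Real.log X)) := by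
    have h5 : (X : ℝ) ^ 2 = Real.exp (2 * Real.log X) := by
      rw [two_mul, Real.exp_add, Real.exp_log (by linarith)]
      ring
    rw [h5, ← Real.exp_nat_mul]
  calc ((a + b).choose a : ℝ) ≤ ((a + b : ℕ) : ℝ) ^ a / (a.factorial : ℝ) := h1
    _ ≤ ((X : ℝ) ^ 2 * a) ^ a / (a.factorial : ℝ) :=
        div_le_div_of_nonneg_right (pow_le_pow_left₀ (Nat.cast_nonneg _) h2 _) hf.le
    _ = ((X : ℝ) ^ 2) ^ a * ((a : ℝ) ^ a / (a.factorial : ℝ)) := by
        rw [mul_pow]
        ring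
    _ ≤ Real.exp (a * (2 * Real.log X)) * Real.exp a := by
        rw [hX2]
        exact mul_le_mul_of_nonneg_left h4 (Real.exp_pos _).le
    _ = Real.exp (a * (2 * Real.log X + 1)) := by
        rw [← Real.exp_add]
        congr 1
        ring

lemma choose_fac {t u : ℕ} (hu : 1 ≤ u) :
    (((t + u - 1).choose (u - 1) : ℝ) * (u.factorial : ℝ)) ≤ ((t + u : ℕ) : ℝ) ^ u := by
  obtain ⟨v, rfl⟩ : ∃ v, u = v + 1 := ⟨u - 1, by omega⟩
  have h1 : (t + (v + 1) - 1).choose (v + 1 - 1) * (v + 1).factorial ≤ (t + (v + 1)) ^ (v + 1) := by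
    have e1 : t + (v + 1) - 1 = t + v := by omega
    have e2 : v + 1 - 1 = v := by omega
    rw [e1, e2, Nat.factorial_succ]
    calc (t + v).choose v * ((v + 1) * v.factorial)
        = (v + 1) * (v.factorial * (t + v).choose v) := by ring
      _ = (v + 1) * (t + v).descFactorial v := by rw [← Nat.descFactorial_eq_factorial_mul_choose]
      _ ≤ (v + 1) * (t + v) ^ v := Nat.mul_le_mul_left _ (Nat.descFactorial_le_pow _ _)
      _ ≤ (t + (v + 1)) * (t + (v + 1)) ^ v :=
          Nat.mul_le_mul (by omega) (Nat.pow_le_pow_left (by omega) _)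
      _ = (t + (v + 1)) ^ (v + 1) := by rw [pow_succ]; ring
  exact_mod_cast h1

/-- The comparison of the exponents. -/
lemma expo {A x E u a m q : ℝ} (hx : 0.69 ≤ x) (hA : 100 * (q * x) ≤ A) (hu : u ≤ 4 * (q * E))
    (ha0 : 0 ≤ a) (hau : a ≤ u) (hm : 3 ≤ m) (hE : 34 ≤ E) (hq : 1 ≤ q) :
    a * (2 * x + 1) + m * a * x + u * (2 * A + 2 * x) + 2 * u * (x + A) ≤
      (A - 3 * x) * ((m - 2) * E) + (2 * A - 2 * x) * (2 * (u - m)) := by
  have hx0 : 0 < x := by linarith
  have hE0 : 0 < E := by linarith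
  have hqx : x ≤ q * x := by nlinarith
  have hxA : 100 * x ≤ A := by linarith
  have hux : u * x ≤ 0.04 * (E * A) := by
    have h1 : u * x ≤ 4 * (q * E) * x := mul_le_mul_of_nonneg_right hu hx0.le
    have h2 : E * (100 * (q * x)) ≤ E * A := mul_le_mul_of_nonneg_left hA hE0.le
    nlinarith
  have hu0 : 0 ≤ u := le_trans ha0 hau
  have h3 : a * (2 * x + 1) ≤ 3.5 * (u * x) := by
    have h4 : 2 * x + 1 ≤ 3.5 * x := by linarith
    calc a * (2 * x + 1) ≤ u * (3.5 * x) := mul_le_mul hau h4 (by linarith) hu0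
      _ = 3.5 * (u * x) := by ring
  have h5 : m * a * x ≤ m * (u * x) := by
    calc m * a * x = m * (a * x) := by ring
      _ ≤ m * (u * x) := by
        apply mul_le_mul_of_nonneg_left _ (by linarith)
        exact mul_le_mul_of_nonneg_right hau hx0.le
  have hEA : 0 ≤ E * A := mul_nonneg hE0.le (by linarith)
  have h6 : (m + 11.5) * (u * x) ≤ (m + 11.5) * (0.04 * (E * A)) :=
    mul_le_mul_of_nonneg_left hux (by linarith)
  have h7 : 0.97 * A * ((m - 2) * E) ≤ (A - 3 * x) * ((m - 2) * E) := by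
    apply mul_le_mul_of_nonneg_right _ (mul_nonneg (by linarith) hE0.le)
    linarith
  have h8 : 34 * A ≤ E * A := mul_le_mul_of_nonneg_right hE (by linarith)
  have h9 : (m - 2) * (34 * A) ≤ (m - 2) * (E * A) :=
    mul_le_mul_of_nonneg_left h8 (by linarith)
  have h10 : (m - 3) * (E * A) ≥ 0 := mul_nonneg (by linarith) hEA
  have h11 : (m - 3) * A ≥ 0 := mul_nonneg (by linarith) (by linarith)
  have h12 : m * x ≥ 0 := mul_nonneg (by linarith) hx0.le
  nlinarith

/-- **[NUMVU]** -/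
theorem numVU : NumVU := by
  refine ⟨0, ?_⟩
  intro q a b X m u t y hq _ hX hqX hXa hab hbX hm hmX hqu hub htb hy
  have hX0 : 0 < X := by omega
  have hX100 : X ^ 100 ≤ a := le_trans (Nat.pow_le_pow_right hX0 (by omega)) hXa
  have ha0 : 0 < a := lt_of_lt_of_le (by positivity) hX100
  have hau : a < u := by
    by_contra hcon
    have h1 : q * u ≤ q * a := Nat.mul_le_mul_left _ (by omega)
    have h2 : (q + 1) * a = q * a + a := by ring
    omega
  obtain ⟨v, rfl⟩ : ∃ v, u = a + v := ⟨u - a, by omega⟩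
  have hqv : a ≤ q * v := by
    have h2 : (q + 1) * a = q * a + a := by ring
    have h3 : q * (a + v) = q * a + q * v := by ring
    omega
  have hv : 70 ≤ v := by
    have h1 : X * X ^ 99 ≤ X * v := by
      calc X * X ^ 99 = X ^ 100 := by ring
        _ ≤ a := hX100
        _ ≤ q * v := hqv
        _ ≤ X * v := Nat.mul_le_mul_right _ hqX
    have h2 : X ^ 99 ≤ v := Nat.le_of_mul_le_mul_left h1 hX0
    have h3 : 2 ^ 99 ≤ X ^ 99 := Nat.pow_le_pow_left hX 99
    have h4 : 70 ≤ 2 ^ 99 := by norm_num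
    omega
  have hma : m ≤ a := by
    have h1 : X ^ 2 ≤ X ^ 100 := Nat.pow_le_pow_right hX0 (by norm_num)
    omega
  have hX2 : (2 : ℝ) ≤ X := by exact_mod_cast hX
  have hXR : (0 : ℝ) < X := by linarith
  have haR : (0 : ℝ) < a := by exact_mod_cast ha0
  have hyR : (a : ℝ) ^ 2 ≤ 2 * X * y := by exact_mod_cast hy
  have hy0 : (0 : ℝ) < y := by
    by_contra hcon
    push Not at hcon
    nlinarith [pow_pos haR 2]
  obtain ⟨A, hA⟩ : ∃ A, A = Real.log a := ⟨_, rfl⟩
  obtain ⟨x, hx⟩ : ∃ x, x = Real.log X := ⟨_, rfl⟩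
  have hlog2 := Real.log_two_gt_d9
  have hxl : 0.69 ≤ x := by
    have h1 : Real.log 2 ≤ Real.log X := Real.log_le_log (by norm_num) hX2
    rw [hx]
    linarith
  have hx2 : Real.log 2 ≤ x := by
    rw [hx]
    exact Real.log_le_log (by norm_num) hX2
  have hAx : 100 * ((q : ℝ) * x) ≤ A := by
    have h1 : ((X ^ (100 * q) : ℕ) : ℝ) ≤ a := by exact_mod_cast hXa
    have h2 := Real.log_le_log (by positivity) h1
    rw [Nat.cast_pow, Real.log_pow] at h2
    rw [hA, hx]
    push_cast at h2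
    linarith
  have hqR : (1 : ℝ) ≤ q := by exact_mod_cast hq
  have hmR : (3 : ℝ) ≤ m := by exact_mod_cast hm
  obtain ⟨E, hE⟩ : ∃ E : ℕ, E = a + v - 2 - a := ⟨_, rfl⟩
  have hEv : E + 2 = v := by omega
  have hE34 : (34 : ℝ) ≤ E := by
    have : 34 ≤ E := by omega
    exact_mod_cast this
  have huE : ((a + v : ℕ) : ℝ) ≤ 4 * ((q : ℝ) * E) := by
    have h1 : a + v ≤ 4 * (q * E) := by
      have h2 : v ≤ q * v := Nat.le_mul_of_pos_left _ (by omega)
      have h3 : q * v ≤ q * (2 * E) := Nat.mul_le_mul_left _ (by omega)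
      have h4 : q * (2 * E) = 2 * (q * E) := by ring
      omega
    exact_mod_cast h1
  have hau' : (a : ℝ) ≤ ((a + v : ℕ) : ℝ) := by exact_mod_cast (by omega : a ≤ a + v)
  have huR : (0 : ℝ) < ((a + v : ℕ) : ℝ) := lt_of_lt_of_le haR hau'
  -- the factors
  have f1 : ((a + b).choose a : ℝ) ≤ Real.exp (a * (2 * x + 1)) := by
    rw [hx]
    exact choose_exp ha0 hX hbX
  have f2 : (2 : ℝ) ^ (m * a) ≤ Real.exp (m * a * x) := by
    have h1 : (2 : ℝ) ^ (m * a) = Real.exp (m * a * Real.log 2) := by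
      rw [← Nat.cast_mul, Real.exp_nat_mul, Real.exp_log (by norm_num)]
    rw [h1]
    apply Real.exp_le_exp.2
    exact mul_le_mul_of_nonneg_left hx2 (by positivity)
  have hubXR : ((a + v : ℕ) : ℝ) ≤ Real.exp (x + A) := by
    rw [Real.exp_add, hx, hA, Real.exp_log hXR, Real.exp_log haR]
    exact_mod_cast hub.trans hbX
  have f3 : (((t + (a + v) - 1).choose (a + v - 1) : ℝ) * ((a + v).factorial : ℝ)) ≤
      Real.exp (((a + v : ℕ) : ℝ) * (2 * A + 2 * x)) := by
    refine (choose_fac (by omega)).trans ?_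
    rw [Real.exp_nat_mul]
    apply pow_le_pow_left₀ (Nat.cast_nonneg _)
    have h1 : t + (a + v) ≤ X ^ 2 * a ^ 2 := by
      have h2 : t + (a + v) ≤ a * b + b := by omega
      have h3 : a * b + b = (a + 1) * b := by ring
      calc t + (a + v) ≤ (a + 1) * b := by omega
        _ ≤ (2 * a) * (X * a) := Nat.mul_le_mul (by omega) hbX
        _ = 2 * (X * a ^ 2) := by ring
        _ ≤ X * (X * a ^ 2) := Nat.mul_le_mul_right _ hX
        _ = X ^ 2 * a ^ 2 := by ring
    have h4 : Real.exp (2 * A + 2 * x) = (X : ℝ) ^ 2 * (a : ℝ) ^ 2 := by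
      rw [Real.exp_add, two_mul, two_mul, Real.exp_add, Real.exp_add, hx, hA, Real.exp_log hXR,
        Real.exp_log haR]
      ring
    rw [h4]
    exact_mod_cast h1
  have f4 : ((a + v).factorial : ℝ) ^ 2 ≤ Real.exp (2 * ((a + v : ℕ) : ℝ) * (x + A)) := by
    have h1 : ((a + v).factorial : ℝ) ≤ Real.exp (((a + v : ℕ) : ℝ) * (x + A)) := by
      rw [Real.exp_nat_mul]
      calc ((a + v).factorial : ℝ) ≤ (((a + v) ^ (a + v) : ℕ) : ℝ) := by
            exact_mod_cast Nat.factorial_le_pow (a + v)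
        _ = ((a + v : ℕ) : ℝ) ^ (a + v) := by push_cast; rfl
        _ ≤ _ := pow_le_pow_left₀ (Nat.cast_nonneg _) hubXR _
    calc ((a + v).factorial : ℝ) ^ 2 ≤ (Real.exp (((a + v : ℕ) : ℝ) * (x + A))) ^ 2 :=
          pow_le_pow_left₀ (Nat.cast_nonneg _) h1 2
      _ = Real.exp (2 * ((a + v : ℕ) : ℝ) * (x + A)) := by
          rw [sq, ← Real.exp_add]
          congr 1
          ring
  have hylow : Real.exp (2 * A - 2 * x) ≤ y := by
    rw [Real.exp_sub, two_mul, two_mul, Real.exp_add, Real.exp_add, hx, hA, Real.exp_log hXR,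
      Real.exp_log haR, div_le_iff₀ (by positivity)]
    calc (a : ℝ) * a = (a : ℝ) ^ 2 := by ring
      _ ≤ 2 * X * y := hyR
      _ ≤ X * X * y := by
          apply mul_le_mul_of_nonneg_right _ hy0.le
          exact mul_le_mul_of_nonneg_right hX2 hXR.le
      _ = y * (X * X) := by ring
  have g1 : Real.exp ((2 * A - 2 * x) * (2 * (((a + v : ℕ) : ℝ) - m))) ≤
      (y : ℝ) ^ (2 * (a + v - m)) := by
    have h1 : (((2 * (a + v - m) : ℕ)) : ℝ) = 2 * (((a + v : ℕ) : ℝ) - m) := by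
      rw [Nat.cast_mul, Nat.cast_sub (by omega)]
      push_cast
      ring
    rw [← h1, mul_comm, Real.exp_nat_mul]
    exact pow_le_pow_left₀ (Real.exp_pos _).le hylow _
  have g2 : Real.exp ((A - 3 * x) * (((m : ℝ) - 2) * E)) ≤
      (1 + (y : ℝ) / ((a + v : ℕ) : ℝ)) ^ ((m - 2) * (a + v - 2 - a)) := by
    have h1 : (((m - 2) * (a + v - 2 - a) : ℕ) : ℝ) = ((m : ℝ) - 2) * E := by
      rw [← hE, Nat.cast_mul, Nat.cast_sub (by omega)]
      push_cast
      ring
    rw [← h1, mul_comm, Real.exp_nat_mul]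
    apply pow_le_pow_left₀ (Real.exp_pos _).le
    have h2 : Real.exp (A - 3 * x) = Real.exp (2 * A - 2 * x) / Real.exp (x + A) := by
      rw [← Real.exp_sub]
      congr 1
      ring
    rw [h2]
    have h3 : Real.exp (2 * A - 2 * x) / Real.exp (x + A) ≤ (y : ℝ) / ((a + v : ℕ) : ℝ) :=
      div_le_div₀ hy0.le hylow huR hubXR
    linarith
  have hexp := expo (A := A) (x := x) (E := E) (u := ((a + v : ℕ) : ℝ)) (a := a) (m := m)
    (q := q) hxl hAx huE haR.le hau' hmR hE34 hqR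
  calc ((a + b).choose a : ℝ) * 2 ^ (m * a) *
        (((t + (a + v) - 1).choose (a + v - 1) : ℝ) * ((a + v).factorial : ℝ)) *
        ((a + v).factorial : ℝ) ^ 2
      ≤ Real.exp (a * (2 * x + 1)) * Real.exp (m * a * x) *
        Real.exp (((a + v : ℕ) : ℝ) * (2 * A + 2 * x)) *
        Real.exp (2 * ((a + v : ℕ) : ℝ) * (x + A)) := by
        apply mul_le_mul _ f4 (by positivity) (by positivity)
        apply mul_le_mul _ f3 (by positivity) (by positivity)
        exact mul_le_mul f1 f2 (by positivity) (by positivity)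
    _ = Real.exp (a * (2 * x + 1) + m * a * x + ((a + v : ℕ) : ℝ) * (2 * A + 2 * x) +
          2 * ((a + v : ℕ) : ℝ) * (x + A)) := by
        rw [Real.exp_add, Real.exp_add, Real.exp_add]
    _ ≤ Real.exp ((A - 3 * x) * (((m : ℝ) - 2) * E) +
          (2 * A - 2 * x) * (2 * (((a + v : ℕ) : ℝ) - m))) := Real.exp_le_exp.2 hexp
    _ = Real.exp ((A - 3 * x) * (((m : ℝ) - 2) * E)) *
          Real.exp ((2 * A - 2 * x) * (2 * (((a + v : ℕ) : ℝ) - m))) := Real.exp_add _ _
    _ ≤ _ := mul_le_mul g2 g1 (Real.exp_pos _).le (by positivity)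

end Vale.Agent.P181.RV.H627
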