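import Vale.Agent.P181.RV.Defs
import Vale.Agent.P181.PL.Defs

set_option autoImplicit false

/-!
# P181, RVU: RV uniform in `q`, hence `b ≥ a + C a loglog a / log a`: the literals
-/

namespace Vale.Agent.P181.RV

open Finset Vale.Agent.P181 Vale.Agent.P181.H280 Vale.Agent.P181.H463

/-- **[NUMVU]** the final inequality, uniform in `q`. -/
def NumVU : Prop := ∃ a₀ : ℕ, ∀ (q a b X m u t y : ℕ), 1 ≤ q → a₀ ≤ a → 2 ≤ X → q ≤ X →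
  X ^ (100 * q) ≤ a → a ≤ b → b ≤ X * a → 3 ≤ m → m ≤ X ^ 2 → (q + 1) * a ≤ q * u → u ≤ b →
  t ≤ a * b → a ^ 2 ≤ 2 * X * y →
  ((a + b).choose a : ℝ) * 2 ^ (m * a) * (((t + u - 1).choose (u - 1) : ℝ) * (u.factorial : ℝ)) *
    (u.factorial : ℝ) ^ 2 ≤ (1 + (y : ℝ) / u) ^ ((m - 2) * (u - 2 - a)) * (y : ℝ) ^ (2 * (u - m))

/-- **[COREVU]** `CorV`, uniform in `q`. -/
def CorVU : Prop := ∃ a₀ : ℕ, ∀ (q a b X m k : ℕ) (lam : Fin (k + 2) → ℕ), 1 ≤ q →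
  a₀ ≤ a → Antitone lam → ∑ i, lam i = a * b → k + 2 ≤ a → 2 * q ≤ X → X ^ (200 * q) ≤ a →
  (q + 1) * a ≤ q * b → b ≤ X * a → 3 ≤ m → m ≤ k + 2 → m ≤ X ^ 2 →
  (∀ i : Fin (k + 2), (i : ℕ) < m → a ^ 2 ≤ X * lam i ∧
    ∀ j : Fin (k + 2), m ≤ (j : ℕ) → a ^ 2 + X * lam j ≤ X * lam i) →
  plethMult a b (k + 2) lam ≤ plethMult b a (k + 2) lam

/-- **[NEARV]** `b ≥ a + C b loglog a / log a` and at least `a ^ 2 / polylog` cells below row two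
(from `CorVU`, `FatLog`, `PolyS`). -/
def NearV : Prop := ∀ (C₀ : ℝ) (c₀ : ℕ), 0 < C₀ → ∃ (C : ℝ) (a₀ : ℕ), 0 < C ∧
  ∀ (a b n : ℕ) (lam : Fin n → ℕ), a₀ ≤ a →
  C * b * Real.log (2 + Real.log a) ≤ ((b : ℝ) - a) * Real.log a →
  (a : ℝ) ^ 2 ≤ C₀ * (1 + Real.log a) ^ c₀ * (PL.dn lam 2 : ℝ) →
  plethMult a b n lam ≤ plethMult b a n lam

end Vale.Agent.P181.RV
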